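import Mathlib.Data.Real.Basic
import Mathlib.Algebra.BigOperators.Fin
import Mathlib.Algebra.Order.BigOperators.Ring.Finset
import Mathlib.Tactic

/-!
# P277, (WS): the numbers attached to a flipped surface along which the space is singular
-/

noncomputable section

namespace Vale.Agent.P277.H335.W

/-- The coefficient of one of the places is small. -/
theorem ws_num {d n k s : ℕ} (hd : 1 ≤ d) {sS : Fin d → ℕ} (hs : ∀ k', 1 ≤ sS k')
    (hn : (n : ℝ) = ∑ k', 1 / (sS k' : ℝ)) {ρ : Fin (k + s) → ℝ} (hρ : ∀ e, 0 < ρ e)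
    {y : Fin d → Fin (k + s) → ℝ} (hy : ∀ k' (i : Fin s), y k' (Fin.natAdd k i) ≤ 0)
    (hP : ∀ k', ∑ e : Fin k, ρ (Fin.castAdd s e) * y k' (Fin.castAdd s e) ≤ 0)
    (ha : ∀ k', -1 < ∑ e, ρ e * y k' e)
    {lam : Fin (k + s) → ℤ} (hlam : ∀ e, (lam e : ℝ) = ∑ k', y k' e / (sS k' : ℝ))
    (hkey : (n : ℝ) + ∑ e : Fin k, ρ (Fin.castAdd s e) * lam (Fin.castAdd s e) ≤ 2) :
    ∃ k₀, ∑ i : Fin s, (if y k₀ (Fin.natAdd k i) < 0 then ρ (Fin.natAdd k i) else 0) ≤
      -2 * ∑ e, ρ e * y k₀ e := by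
  have hs0 : ∀ k', (0 : ℝ) < sS k' := fun k' => by exact_mod_cast hs k'
  set B : ℝ := ∑ i : Fin s, (if lam (Fin.natAdd k i) < 0 then ρ (Fin.natAdd k i) else 0) with hB
  have hB0 : 0 ≤ B := Finset.sum_nonneg fun i _ => by
    split_ifs
    · exact (hρ _).le
    · exact le_rfl
  have hneg : ∀ k' (i : Fin s), 0 ≤ -y k' (Fin.natAdd k i) / (sS k' : ℝ) := fun k' i =>
    div_nonneg (neg_nonneg.2 (hy k' i)) (hs0 k').le
  have hlam' : ∀ i : Fin s, -(lam (Fin.natAdd k i) : ℝ) =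
      ∑ k', -y k' (Fin.natAdd k i) / (sS k' : ℝ) := fun i => by
    rw [hlam, ← Finset.sum_neg_distrib]
    exact Finset.sum_congr rfl fun k' _ => by rw [neg_div]
  have hlam0 : ∀ i : Fin s, (lam (Fin.natAdd k i) : ℝ) ≤ 0 := fun i => by
    have h1 : 0 ≤ -(lam (Fin.natAdd k i) : ℝ) := by
      rw [hlam']
      exact Finset.sum_nonneg fun k' _ => hneg k' i
    linarith
  have hBk : ∀ k', ∑ i : Fin s, (if y k' (Fin.natAdd k i) < 0 then ρ (Fin.natAdd k i) else 0) ≤
      B := by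
    intro k'
    refine Finset.sum_le_sum fun i _ => ?_
    by_cases h1 : y k' (Fin.natAdd k i) < 0
    · have h2 : 0 < -y k' (Fin.natAdd k i) / (sS k' : ℝ) := div_pos (neg_pos.2 h1) (hs0 k')
      have h3 : -y k' (Fin.natAdd k i) / (sS k' : ℝ) ≤ -(lam (Fin.natAdd k i) : ℝ) := by
        rw [hlam']
        exact Finset.single_le_sum (f := fun k' => -y k' (Fin.natAdd k i) / (sS k' : ℝ))
          (fun k' _ => hneg k' i) (Finset.mem_univ k')
      have h4 : (lam (Fin.natAdd k i) : ℝ) < 0 := by linarith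
      have h5 : lam (Fin.natAdd k i) < 0 := by exact_mod_cast h4
      rw [if_pos h1, if_pos h5]
    · rw [if_neg h1]
      split_ifs
      · exact (hρ _).le
      · exact le_rfl
  have hBl : ∑ i : Fin s, ρ (Fin.natAdd k i) * (lam (Fin.natAdd k i) : ℝ) ≤ -B := by
    rw [hB, ← Finset.sum_neg_distrib]
    refine Finset.sum_le_sum fun i _ => ?_
    split_ifs with h1
    · have h2 : (lam (Fin.natAdd k i) : ℝ) ≤ -1 := by
        have : lam (Fin.natAdd k i) ≤ -1 := by omega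
        exact_mod_cast this
      nlinarith [hρ (Fin.natAdd k i)]
    · have h2 : (lam (Fin.natAdd k i) : ℝ) = 0 := by
        have h3 : (0 : ℝ) ≤ lam (Fin.natAdd k i) := by exact_mod_cast not_lt.1 h1
        exact le_antisymm (hlam0 i) h3
      rw [h2, mul_zero, neg_zero]
  have hswap : ∀ e, ρ e * (lam e : ℝ) = ∑ k', ρ e * y k' e / (sS k' : ℝ) := fun e => by
    rw [hlam, Finset.mul_sum]
    exact Finset.sum_congr rfl fun k' _ => by rw [mul_div_assoc]
  have hS : ∑ k', (∑ e, ρ e * y k' e) / (sS k' : ℝ) =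
      ∑ e : Fin k, ρ (Fin.castAdd s e) * (lam (Fin.castAdd s e) : ℝ) +
        ∑ i : Fin s, ρ (Fin.natAdd k i) * (lam (Fin.natAdd k i) : ℝ) := by
    rw [← Fin.sum_univ_add (f := fun e => ρ e * (lam e : ℝ))]
    simp only [hswap]
    rw [Finset.sum_comm]
    exact Finset.sum_congr rfl fun k' _ => by rw [Finset.sum_div]
  have hS2 : ∑ e : Fin k, ρ (Fin.castAdd s e) * (lam (Fin.castAdd s e) : ℝ) ≤ 0 := by
    simp only [hswap]
    rw [Finset.sum_comm]
    refine Finset.sum_nonpos fun k' _ => ?_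
    rw [← Finset.sum_div]
    exact div_nonpos_of_nonpos_of_nonneg (hP k') (hs0 k').le
  have hne : (Finset.univ : Finset (Fin d)).Nonempty := ⟨⟨0, hd⟩, Finset.mem_univ _⟩
  have hlt : ∀ c : ℝ, (∀ k', c < ∑ e, ρ e * y k' e) →
      c * n < ∑ k', (∑ e, ρ e * y k' e) / (sS k' : ℝ) := by
    intro c hc
    rw [hn, Finset.mul_sum]
    refine Finset.sum_lt_sum_of_nonempty hne fun k' _ => ?_
    rw [mul_one_div]
    exact div_lt_div_of_pos_right (hc k') (hs0 k')
  have hn1 : 1 ≤ n := by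
    have h1 : (0 : ℝ) < n := by
      rw [hn]
      exact Finset.sum_pos (fun k' _ => one_div_pos.2 (hs0 k')) hne
    exact_mod_cast h1
  by_contra hcon
  push Not at hcon
  have hc2 := hlt (-B / 2) fun k' => by
    have h1 := hcon k'
    have h2 := hBk k'
    linarith
  have hc1 := hlt (-1) ha
  rw [hS] at hc1 hc2
  rcases Nat.eq_or_lt_of_le hn1 with h1 | h1
  · have h2 : (n : ℝ) = 1 := by exact_mod_cast h1.symm
    rw [h2] at hc2
    linarith
  · have h2 : (2 : ℝ) ≤ n := by exact_mod_cast h1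
    by_cases h3 : B ≤ 2
    · nlinarith [mul_nonneg (sub_nonneg.2 h2) (sub_nonneg.2 h3)]
    · push Not at h3
      linarith

end Vale.Agent.P277.H335.W
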